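import Vale.Agent.P161.TreeSum
import Vale.Agent.P161.TreeMag
import Vale.Agent.P161.TreeUniq
import Vale.Agent.P161.TreeIsing

/-! Tree part of P161: `B1`, `B2`, `B3`, `B4`, `B5`, `B6`. -/
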